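import Vale.Agent.P287Z.T.Lam2

/-!
# The free graded module of rank one over the Clifford algebra is contractible
-/

set_option linter.unusedSectionVars false

open MvPolynomial Module

namespace Vale.Agent.P287Z.T3

open O.V T

theorem ring_sq {R : Type*} [Ring R] {d e j : R} (h1 : d * d = 0) (h2 : e * d = -(d * e))
    (h3 : e * e = 1) (h4 : j * e = e * j) (h5 : j * d = d * j) :
    (d + e * j) * (d + e * j) = j * j := by
  rw [add_mul, mul_add, mul_add, h1, mul_assoc, h5, ← mul_assoc e, h2,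
    mul_assoc e, ← mul_assoc j, h4, ← mul_assoc, ← mul_assoc, ← mul_assoc, h3, one_mul, neg_mul]
  abel

theorem ring_hom {R : Type*} [Ring R] {d e j k : R} (h2 : e * d = -(d * e))
    (h3 : e * e = 1) (h4 : j * e = e * j) (h5 : k * e = e * k) (h6 : k * d = d * k) :
    (d + e * j) * (e * k) + e * k * (d + e * j) = j * k + k * j := by
  have h : ∀ f g : R, f * e = e * f → e * f * (e * g) = f * g := by
    intro f g hf
    rw [mul_assoc, ← mul_assoc f, hf, ← mul_assoc, ← mul_assoc, h3, one_mul]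
  rw [add_mul, mul_add, h _ _ h4, h _ _ h5, mul_assoc e, h6, ← mul_assoc e, h2, neg_mul, mul_assoc]
  abel

section

variable {M : Type} [AddCommGroup M] [Module A3 M] [Module ℂ M] [IsScalarTower ℂ A3 M]
  {G : ℤ → Submodule ℂ M} {Mx : Matrix (Fin 4) (Fin 4) A3}

variable (M Mx) in
/-- the derivation attached to the last column -/
noncomputable def del : Module.End A3 (Lam M) :=
  KK (algebraMap A3 (Module.End A3 (Lam M))) (mat M) 0 fun j => 2 * Mx j.castSucc 3

theorem del_LL (i : Fin 3) :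
    del M Mx * LL M Mx i + LL M Mx i * del M Mx = (2 * Mx i.castSucc 3) • 1 := by
  rw [del, LL_eq, KK_anti _ _ (fun K x => (Algebra.commutes x _).symm),
    Algebra.algebraMap_eq_smul_one]
  congr 1
  simp

theorem del_sq : del M Mx * del M Mx = 0 := by
  have h : del M Mx * del M Mx + del M Mx * del M Mx = (2 * (0 : A3)) • 1 := by
    rw [del, KK_anti _ _ (fun K x => (Algebra.commutes x _).symm)]
    simp
  rw [sq_of_anti h, zero_smul]

theorem eps_del : mat M eI * del M Mx = -(del M Mx * mat M eI) :=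
  eq_neg_of_add_eq_zero_left (KK_eps _ _ (fun _ x => (Algebra.commutes x _).symm) _ _)

theorem cw_del (g : Module.End A3 M) : cw g * del M Mx = del M Mx * cw g := by
  refine LinearMap.ext fun v => ?_
  have h : ∀ K, cw g (mat M K v) = mat M K (cw g v) := fun K =>
    LinearMap.congr_fun (cw_mat g K) v
  simp [del, KK, h]

theorem dk_del (hM : FB Mx) (hG : IsGr G) : del M Mx ∈ Dk (lamG G) (lamG G) 3 := by
  have h : del M Mx = ∑ j : Fin 3, (2 * Mx j.castSucc 3) • mat M (cI j) := by
    simp only [del, KK, Pi.zero_apply, map_zero, zero_mul, Finset.sum_const_zero, zero_add,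
      Algebra.smul_def]
  rw [h]
  refine Submodule.sum_mem _ fun j _ => dk_smul (isGr_lam hG) (d := 4) ?_ (dk_mat (cI_lv j)) rfl
  rw [two_mul]
  exact hg_add (hM.h4 j) (hM.h4 j)

/-- the module attached to a square root `J` of the last diagonal entry -/
noncomputable def frL (hM : FB Mx) (hG : IsGr G) (J : Module.End A3 M) (hJ : J ∈ Dk G G 3)
    (h : J * J = Mx 3 3 • 1) : LM Mx G where
  E := del M Mx + mat M eI * cw J
  deg := add_mem (dk_del hM hG) (pp_ecw (Mx := Mx) hJ).1
  anti i := by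
    have h1 : mat M eI * cw J * LL M Mx i = -(LL M Mx i * (mat M eI * cw J)) := by
      have h2 := (pp_ecw (Mx := Mx) hJ).2 i
      rwa [neg_smul, one_smul] at h2
    rw [add_mul, mul_add, h1, ← del_LL i]
    abel
  sq := by
    refine (ring_sq del_sq eps_del eps_eps (cw_mat J eI) (cw_del J)).trans ?_
    change cw (J * J) = _
    rw [h]
    rfl

theorem frL_contr (hM : FB Mx) (hG : IsGr G) (J : Module.End A3 M) (hJ : J ∈ Dk G G 3)
    (h : J * J = Mx 3 3 • 1) (K : Module.End A3 M) (hK : K ∈ Dk G G (-3))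
    (h' : J * K + K * J = 1) :
    LinearMap.id ∈ BC (frL hM hG J hJ h) (frL hM hG J hJ h) 0 := by
  refine ⟨mat M eI * cw K, pp_ecw hK, ?_⟩
  refine ((ring_hom (eps_del (Mx := Mx)) eps_eps (cw_mat J eI) (cw_mat K eI)
    (cw_del K)).trans ?_).symm
  change cw (J * K + K * J) = _
  rw [h']
  rfl

end

theorem dk_toLin {r : ℕ} (g : Fin r → ℤ) (k : ℤ) (J : Matrix (Fin r) (Fin r) A3)
    (h : ∀ a b, Hg (g b + k - g a) (J a b)) : Matrix.toLin' J ∈ Dk (frG g) (frG g) k :=
  fun _ _ hv _ => hg_sum _ fun _ _ => hg_mul (h _ _) (hv _) (by ring)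

/-- the free module with a generator in degree `j` -/
theorem exists_free {Mx : Matrix (Fin 4) (Fin 4) A3} (hM : FB Mx) (j : ℤ) :
    ∃ N : LM Mx (frG ![j, j + 3]), LinearMap.id ∈ BC N N 0 := by
  have h1 : Hg 0 (1 : A3) := hg_C 1
  refine ⟨_, frL_contr hM (isGr_fr _) (Matrix.toLin' !![0, Mx 3 3; 1, 0]) (dk_toLin _ _ _ ?_) ?_
    (Matrix.toLin' !![0, 1; 0, 0]) (dk_toLin _ _ _ ?_) ?_⟩
  · intro a b
    fin_cases a <;> fin_cases b
    · exact hg_zero _
    · have := hM.h6
      rwa [show (6 : ℤ) = j + 3 + 3 - j by ring] at this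
    · rwa [show (0 : ℤ) = j + 3 - (j + 3) by ring] at h1
    · exact hg_zero _
  · rw [Module.End.mul_eq_comp, ← Matrix.toLin'_mul, Module.End.one_eq_id, ← Matrix.toLin'_one,
      ← map_smul]
    congr 1
    ext1 a b
    fin_cases a <;> fin_cases b <;> simp
  · intro a b
    fin_cases a <;> fin_cases b
    · exact hg_zero _
    · rwa [show (0 : ℤ) = j + 3 + -3 - j by ring] at h1
    · exact hg_zero _
    · exact hg_zero _
  · rw [Module.End.mul_eq_comp, Module.End.mul_eq_comp, ← Matrix.toLin'_mul, ← Matrix.toLin'_mul,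
      Module.End.one_eq_id, ← Matrix.toLin'_one, ← map_add]
    congr 1
    ext1 a b
    fin_cases a <;> fin_cases b <;> simp

end Vale.Agent.P287Z.T3
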