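import Vale.Agent.P287Z.O.N.Dim
import Vale.Agent.P287Z.O.H599.Mod
import Vale.Agent.P287Z.D.Chi

/-!
# Objects of the Kuznetsov component come from graded matrix factorizations
-/

set_option linter.unusedSectionVars false

open CategoryTheory Limits MvPolynomial Vale.Agent.P294Z

universe w

namespace Vale.Agent.P287Z.T3

open O.V T

variable (W : MvPolynomial (Fin 6) ℂ) [hW : Fact (W.IsHomogeneous 3)]

theorem grA_iff (M : Gr.GrS 6) : O.L.grA W M ↔ Gr.grA (Ideal.span {W}) M := by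
  refine and_congr_left fun _ => ⟨fun h f hf a b => ?_, fun h a b => ?_⟩
  · obtain ⟨g, rfl⟩ := Ideal.mem_span_singleton.1 hf
    exact O.L.killed_act_mul h (O.L.hg_ten_of_isHomogeneous W hW.out) g a b
  · exact h W (Ideal.mem_span_singleton_self W) a b

/-- the two models of the category of graded modules -/
noncomputable def cvt : O.L.GA W ⥤ Gr.GA (Ideal.span {W}) :=
  ObjectProperty.ιOfLE fun M h => (grA_iff W M).1 h

/-- the inverse -/
noncomputable def cvi : Gr.GA (Ideal.span {W}) ⥤ O.L.GA W :=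
  ObjectProperty.ιOfLE fun M h => (grA_iff W M).2 h

/-- the equivalence -/
noncomputable def cvE : Gr.GA (Ideal.span {W}) ≌ O.L.GA W :=
  CategoryTheory.Equivalence.mk (cvi W) (cvt W) (Iso.refl _) (Iso.refl _)

instance : (cvt W).Additive where

instance : (cvt W).Linear ℂ where

omit hW in
theorem iso_of_large {M N : O.L.GA W} (f : M ⟶ N)
    (h : ∃ n : ℤ, ∀ a ≥ n, Function.Bijective (f.hom.app ⟨a⟩)) : (O.L.tors W).isoModSerre f := by
  obtain ⟨n, hn⟩ := h
  refine ⟨⟨n, fun a ha => ⟨fun u v => ?_⟩⟩, ⟨n, fun a ha => ⟨fun u v => ?_⟩⟩⟩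
  · refine O.L.GA_app_injective W (kernel.ι f) a ((hn a ha).1 ?_)
    have h : ∀ w : (kernel f).obj.obj ⟨a⟩, f.hom.app ⟨a⟩ ((kernel.ι f).hom.app ⟨a⟩ w) = 0 :=
      fun w => congr_arg (fun k : kernel f ⟶ N => k.hom.app ⟨a⟩ w) (kernel.condition f)
    exact (h u).trans (h v).symm
  · have h : ∀ w : (cokernel f).obj.obj ⟨a⟩, w = 0 := by
      intro w
      obtain ⟨x, rfl⟩ := O.L.GA_app_surjective W (cokernel.π f) a w
      obtain ⟨y, rfl⟩ := (hn a ha).2 x
      exact congr_arg (fun k : M ⟶ cokernel f => k.hom.app ⟨a⟩ y) (cokernel.condition f)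
    rw [h u, h v]

/-- the sheaf of a graded module -/
noncomputable abbrev piW : O.L.GA W ⥤ Coh (PI (Ideal.span {W})) := cvt W ⋙ piI _

instance : (piW W).IsLocalization (O.L.tors W).isoModSerre :=
  Functor.IsLocalization.of_equivalence_source (piI (Ideal.span {W})) (Gr.evIso _) (piW W) _
    (cvE W) (fun _ _ _ hf => MorphismProperty.le_isoClosure _ _ (iso_of_large W _ hf))
    (fun _ _ _ hf => Localization.inverts (piI (Ideal.span {W})) (Gr.evIso _) _
      (O.H335.iso_large hf)) (Iso.refl _)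

theorem frW_eq (q : Fin 1 → ℤ) (a : ℤ) : O.L.frW W q a = Gr.frW (Ideal.span {W}) q a := by
  ext v
  exact forall_congr' fun i => Ideal.mem_span_singleton.symm

/-- the free modules in the two models -/
noncomputable def frIso (q : Fin 1 → ℤ) :
    (cvt W).obj (O.L.FrA W q) ≅ Gr.FrA (Ideal.span {W}) q :=
  ObjectProperty.isoMk _ (NatIso.ofComponents
    (fun a => (Submodule.quotEquivOfEq _ _ (frW_eq W q a.deg)).toModuleIso) (by
      intro a b m
      ext x
      obtain ⟨v, rfl⟩ := Submodule.Quotient.mk_surjective _ x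
      rfl))

variable [HasDerivedCategory.{w} (Coh (PI (Ideal.span {W})))]

/-- the equivalence of derived categories -/
noncomputable abbrev DW : DerivedCategory (O.L.Coh W) ⥤
    DerivedCategory (Coh (PI (Ideal.span {W}))) :=
  O.H599.DE (O.L.tors W).isoModSerre (O.L.piA W) (piW W)

theorem dw_od (a : ℤ) : Nonempty ((DW W).obj (O.L.OD W a) ≅
    (DerivedCategory.singleFunctor _ 0).obj (Oc (Ideal.span {W}) a)) := by
  obtain ⟨e⟩ := piI_free (Ideal.span {W}) a (fun _ => -2 * a) rfl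
  exact ⟨(O.H599.DEsingle (O.L.tors W).isoModSerre (O.L.piA W) (piW W) 0).app _ ≪≫
    (DerivedCategory.singleFunctor _ 0).mapIso ((piI _).mapIso (frIso W _) ≪≫ e)⟩

theorem exists_gmf (h0 : W ≠ 0) (E : DbP (Ideal.span {W})) (hE : Ku _ E) :
    ∃ (n : ℕ) (X : GMF W n), Nonempty ((DW W).obj (O.L.FD X) ≅ E.obj) := by
  let Y := (O.H599.DEi (O.L.tors W).isoModSerre (O.L.piA W) (piW W)).obj E.obj
  have e : (DW W).obj Y ≅ E.obj :=
    (O.H599.DEE (O.L.tors W).isoModSerre (O.L.piA W) (piW W)).counitIso.app E.obj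
  obtain ⟨n, X, ⟨j⟩⟩ := O.N.ess hW.out h0 Y (O.H599.DEi_bounded _ _ _ E.property) (by
    intro a h1 h2 k f
    obtain ⟨i⟩ := dw_od W a
    apply (DW W).map_injective
    rw [Functor.map_zero, ← cancel_epi i.inv, comp_zero,
      ← cancel_mono (((DW W).commShiftIso k).app Y ≪≫ (shiftFunctor _ k).mapIso e).hom, zero_comp]
    exact hE a h1 h2 k _)
  exact ⟨n, X, ⟨(DW W).mapIso j ≪≫ e⟩⟩

theorem hom_gmf (h0 : W ≠ 0) {E E' : DbP (Ideal.span {W})} {m n : ℕ} {X : GMF W m} {Y : GMF W n}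
    (e : (DW W).obj (O.L.FD X) ≅ E.obj) (e' : (DW W).obj (O.L.FD Y) ≅ E'.obj) (k : ℤ) :
    Nonempty (HQ (ZM X Y (3 * k)) (BM X Y (3 * k)) ≃ₗ[ℂ] (E ⟶ E'⟦k⟧)) := by
  obtain ⟨α⟩ := O.N.hom_equiv hW.out h0 X Y k
  let ι := (DerivedCategory.TStructure.t (C := Coh (PI (Ideal.span {W})))).bounded.ι
  exact ⟨α ≪≫ₗ homEq (DW W) _ _ (((DW W).commShiftIso k).app _ ≪≫ (shiftFunctor _ k).mapIso e') ≪≫ₗ
    Linear.homCongr ℂ e (Iso.refl _) ≪≫ₗ (homEq ι E (E'⟦k⟧) ((ι.commShiftIso k).app E')).symm⟩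

/-- **the shim**: every object of the Kuznetsov component has a matrix factorization -/
theorem shim (h0 : W ≠ 0) : ∃ (n : ∀ E : DbP (Ideal.span {W}), Ku _ E → ℕ)
    (X : ∀ E hE, GMF W (n E hE)), ∀ E hE E' hE' (k : ℤ),
      Nonempty (HQ (ZM (X E hE) (X E' hE') (3 * k)) (BM (X E hE) (X E' hE') (3 * k)) ≃ₗ[ℂ]
        (E ⟶ E'⟦k⟧)) := by
  choose n X hX using exists_gmf W h0
  exact ⟨n, X, fun E hE E' hE' k => hom_gmf W h0 (hX E hE).some (hX E' hE').some k⟩

end Vale.Agent.P287Z.T3
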