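import Mathlib

/-!
# The arithmetic of the comparison of the two Euler forms
-/

namespace Vale.Agent.P287Z.T3

/-- the periodic correction -/
def kap (t : ℤ) : ℤ :=
  if t % 6 = 0 then 0 else if t % 6 = 1 ∨ t % 6 = 5 then 1 else if t % 6 = 3 then 5 else 4

/-- the correction term -/
def bet (t : ℤ) : ℤ := (t ^ 2 - kap t) / 4

theorem four_bet (t : ℤ) : 4 * bet t = t ^ 2 - kap t := by
  refine Int.mul_ediv_cancel' ?_
  obtain ⟨q, r, h1, h2, rfl⟩ : ∃ q r : ℤ, 0 ≤ r ∧ r < 6 ∧ t = r + 6 * q :=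
    ⟨t / 6, t % 6, by omega, by omega, by omega⟩
  have h3 : kap (r + 6 * q) = kap r := by simp only [kap, Int.add_mul_emod_self_left]
  have h4 : (4 : ℤ) ∣ r ^ 2 - kap r := by
    interval_cases r <;> decide
  rw [h3, show (r + 6 * q) ^ 2 - kap r = r ^ 2 - kap r + 4 * (3 * r * q + 9 * q ^ 2) by ring]
  exact dvd_add h4 (dvd_mul_right _ _)

theorem bet_add (i m : ℤ) : bet (6 * i + m) = 9 * i ^ 2 + 3 * m * i + bet m := by
  have h1 := four_bet (6 * i + m)
  have h2 := four_bet m
  have h3 : kap (6 * i + m) = kap m := by simp only [kap, Int.mul_add_emod_self_left]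
  rw [h3] at h1
  nlinarith

theorem bet_small {m : ℤ} (h1 : -2 ≤ m) (h2 : m ≤ 2) : bet m = 0 := by
  interval_cases m <;> decide

theorem bet_rec (t : ℤ) : 2 * (bet (t + 3) + bet t) = (t + 2) * (t + 1) := by
  have h1 := four_bet (t + 3)
  have h2 := four_bet t
  have h3 : kap (t + 3) + kap t = 5 := by
    unfold kap
    split_ifs <;> omega
  nlinarith

/-- the alternating sum of the Hilbert function -/
def TT (t : ℤ) : ℤ := if -2 ≤ t then bet t else 0

theorem TT_small {t : ℤ} (h : t ≤ 2) : TT t = 0 := by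
  unfold TT
  split_ifs with h1
  · exact bet_small h1 h
  · rfl

theorem TT_rec {c : ℤ → ℤ} (h1 : ∀ t < 0, c t = 0) (h2 : ∀ t ≥ -2, 2 * c t = (t + 2) * (t + 1))
    (t : ℤ) : TT (t + 3) + TT t = c t := by
  by_cases h : -2 ≤ t
  · have h3 := bet_rec t
    have h4 := h2 t h
    rw [TT, TT, if_pos h, if_pos (by omega)]
    omega
  · rw [TT_small (by omega), TT_small (by omega), h1 t (by omega), add_zero]

/-- solution of the recursion `u k = H k - u (k - 1)` -/
theorem alt_sum {u H : ℤ → ℤ} (h : ∀ k, u (k + 1) + u k = H (k + 1)) {a b : ℤ}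
    (ha : ∀ k ≤ a, u k = 0) (hb : ∀ k ≥ b, H k = 0) :
    ∀ i, b ≤ 2 * i → u (2 * i) = ∑ᶠ k : ℤ, (k.negOnePow : ℤ) * H k := by
  have key : ∀ n : ℕ, ((a + n).negOnePow : ℤ) * u (a + n) =
      ∑ k ∈ Finset.Icc a (a + n), (k.negOnePow : ℤ) * H k := by
    intro n
    induction n with
    | zero =>
      have h1 := h (a - 1)
      rw [sub_add_cancel, ha (a - 1) (by omega), add_zero] at h1
      simp [h1]
    | succ n ih =>
      rw [Nat.cast_succ, ← add_assoc, ← Finset.insert_Icc_right_eq_Icc_add_one (by omega),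
        Finset.sum_insert (by simp), ← ih, ← h, Int.negOnePow_succ]
      push_cast
      ring
  intro i hi
  have hH : ∀ k ≤ a, H k = 0 := fun k hk => by
    have h1 := h (k - 1)
    rwa [sub_add_cancel, ha k hk, ha (k - 1) (by omega), add_zero, eq_comm] at h1
  by_cases h1 : a ≤ 2 * i
  · obtain ⟨n, hn⟩ := Int.le.dest h1
    have h2 := key n
    rw [hn, Int.negOnePow_two_mul] at h2
    rw [finsum_eq_sum_of_support_subset (s := Finset.Icc a (2 * i)), ← h2]
    · simp
    · intro k hk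
      by_contra h3
      rw [Finset.coe_Icc, Set.mem_Icc, not_and_or, not_le, not_le] at h3
      rcases h3 with h3 | h3
      · exact hk (by simp [hH k h3.le])
      · exact hk (by simp [hb k (by omega)])
  · rw [ha _ (by omega), finsum_eq_zero_of_forall_eq_zero]
    intro k
    by_cases h2 : k ≤ a
    · rw [hH k h2, mul_zero]
    · rw [hb k (by omega), mul_zero]

/-- the bilinear form of the correction terms -/
noncomputable def BB : (ℤ →₀ ℤ) →ₗ[ℤ] (ℤ →₀ ℤ) →ₗ[ℤ] ℤ :=
  Finsupp.lsum ℤ fun a => LinearMap.toSpanSingleton ℤ _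
    (Finsupp.lsum ℤ fun b => LinearMap.toSpanSingleton ℤ ℤ (bet (a - b)))

theorem BB_single (a b : ℤ) : BB (Finsupp.single a 1) (Finsupp.single b 1) = bet (a - b) := by
  simp [BB]

/-- the window -/
noncomputable def Win : Submodule ℤ (ℤ →₀ ℤ) :=
  Submodule.span ℤ {x | ∃ a : ℤ, 0 ≤ a ∧ a ≤ 2 ∧ x = Finsupp.single a 1}

theorem BB_win {x y : ℤ →₀ ℤ} (hx : x ∈ Win) (hy : y ∈ Win) : BB x y = 0 := by
  have h1 : Win ≤ LinearMap.ker (BB.flip y) := by
    refine Submodule.span_le.2 ?_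
    rintro _ ⟨a, h1, h2, rfl⟩
    have h3 : Win ≤ LinearMap.ker (BB (Finsupp.single a 1)) := by
      refine Submodule.span_le.2 ?_
      rintro _ ⟨b, h3, h4, rfl⟩
      exact (BB_single a b).trans (bet_small (by omega) (by omega))
    exact h3 hy
  exact h1 hx

/-- the generators of a free module -/
noncomputable def gF (j : ℤ) : ℤ →₀ ℤ := Finsupp.single j 1 + Finsupp.single (j + 3) 1

theorem win_red (x : ℤ →₀ ℤ) : ∃ n : ℤ →₀ ℤ, x + Finsupp.linearCombination ℤ gF n ∈ Win := by
  let S := Win ⊔ LinearMap.range (Finsupp.linearCombination ℤ gF)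
  have hF : ∀ j, gF j ∈ S := fun j => Submodule.mem_sup_right ⟨Finsupp.single j 1, by simp⟩
  have h1 : ∀ a : ℤ, Finsupp.single a (1 : ℤ) ∈ S := by
    have h0 : ∀ a : ℤ, 0 ≤ a → a ≤ 2 → Finsupp.single a (1 : ℤ) ∈ S := fun a h1 h2 =>
      Submodule.mem_sup_left (Submodule.subset_span ⟨a, h1, h2, rfl⟩)
    have key : ∀ q : ℤ, ∀ r : ℤ, 0 ≤ r → r ≤ 2 → Finsupp.single (r + 3 * q) (1 : ℤ) ∈ S := by
      intro q r h1 h2
      induction q using Int.induction_on with
      | zero => simpa using h0 r h1 h2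
      | succ i ih =>
        rw [show r + 3 * ((i : ℤ) + 1) = r + 3 * i + 3 by ring]
        exact (S.add_mem_iff_right ih).1 (hF _)
      | pred i ih =>
        have h3 := hF (r + 3 * (-(i : ℤ) - 1))
        rw [gF, show r + 3 * (-(i : ℤ) - 1) + 3 = r + 3 * -(i : ℤ) by ring] at h3
        exact (S.add_mem_iff_left ih).1 h3
    intro a
    have h2 := key (a / 3) (a % 3) (by omega) (by omega)
    rwa [Int.emod_add_mul_ediv] at h2
  have h2 : x ∈ S := by
    induction x using Finsupp.induction_linear with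
    | zero => exact S.zero_mem
    | add x y hx hy => exact S.add_mem hx hy
    | single a c =>
      rw [← mul_one c, ← smul_eq_mul, ← Finsupp.smul_single]
      exact S.smul_mem _ (h1 a)
  obtain ⟨w, hw, _, ⟨n, rfl⟩, rfl⟩ := Submodule.mem_sup.1 h2
  exact ⟨-n, by simpa using hw⟩

/-- **window reduction** -/
theorem window (γ : Fin 2 → ℤ →₀ ℤ) (χ : Fin 2 → Fin 2 → ℤ) :
    ∃ (s : Finset ℤ) (v : Fin 2 → Fin 2 ⊕ s → ℤ), ∀ x : Fin 2 ⊕ s → Fin 2 ⊕ s → ℤ,
      (∀ i j, x i j = Sum.elim (fun a => Sum.elim (χ a) 0 j) 0 i +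
        BB (Sum.elim γ (fun a => gF a.1) i) (Sum.elim γ (fun a => gF a.1) j)) →
      ∀ a b, ∑ i, ∑ j, v a i * v b j * x i j = χ a b := by
  choose n hn using fun a => win_red (γ a)
  refine ⟨(n 0).support ∪ (n 1).support, fun a => Sum.elim (Pi.single a 1) fun j => n a j.1,
    fun x hx a b => ?_⟩
  have h1 : ∀ a, ∑ i, Sum.elim (Pi.single a (1 : ℤ) : Fin 2 → ℤ)
      (fun j : ((n 0).support ∪ (n 1).support : Finset ℤ) => n a j.1) i •
      Sum.elim γ (fun a => gF a.1) i ∈ Win := by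
    intro a
    have h2 := hn a
    rw [Finsupp.linearCombination_apply, Finsupp.sum_of_support_subset _
      (s := (n 0).support ∪ (n 1).support) (by fin_cases a <;> simp) _ (by simp),
      ← Finset.sum_coe_sort] at h2
    rw [Fintype.sum_sum_type]
    simpa [Pi.single_apply] using h2
  have h2 := BB_win (h1 a) (h1 b)
  simp only [map_sum, map_smul, LinearMap.sum_apply, LinearMap.smul_apply, smul_eq_mul,
    Finset.mul_sum] at h2
  rw [Finset.sum_comm] at h2
  simp only [hx, mul_add, Finset.sum_add_distrib]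
  rw [← add_zero (χ a b), ← h2]
  congr 1
  · simp [Fintype.sum_sum_type, Pi.single_apply]
  · refine Finset.sum_congr rfl fun i _ => Finset.sum_congr rfl fun j _ => ?_
    ring

end Vale.Agent.P287Z.T3
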