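import Vale.Agent.P287Z.T3.Num
import Vale.Agent.P287Z.L.Sk

/-!
# Translation to modules given by matrices
-/

set_option linter.unusedSectionVars false

open MvPolynomial Module Filter

namespace Vale.Agent.P287Z.T3

open O.V T L Vale.Agent.P287 Vale.Agent.P287.Theta

/-- the Hilbert polynomial, along the multiples of three -/
def HP3 {V : Type} [AddCommGroup V] [Module ℂ V] (F : ℤ → Submodule ℂ V) (R c x : ℤ) : Prop :=
  ∀ᶠ i : ℤ in atTop, 2 * (finrank ℂ (F (3 * i)) : ℤ) =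
    R * ((3 * i) ^ 2 + 3 * (3 * i)) + 2 * c * (3 * i) + 2 * x

/-- the final statement of the lattice part -/
def stMAIN3 : Prop := ∀ (M : Matrix (Fin 4) (Fin 4) P3), M.IsSymm →
  (∀ i j, (M i j).IsHomogeneous (1 + H925.wt i + H925.wt j)) → SmoothForm (H925.cubicOf M) →
  SmoothP M.det → ∀ (ι : Type) [Fintype ι] (N : ι → CM M) (x : ι → ι → ℤ) (v w : ι → ℤ),
    (∀ i j, ∃ R c, HP3 (CHom (N i) (N j)) R c (x i j)) → 4 ∣ ∑ i, ∑ j, v i * v j * x i j →
      Odd (∑ i, ∑ j, w i * v j * x i j) →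
        H925.NetResult.RationalHypersurface (H925.cubicOf M)

theorem hp3_uniq {V V' : Type} [AddCommGroup V] [Module ℂ V] [AddCommGroup V'] [Module ℂ V']
    {F : ℤ → Submodule ℂ V} {F' : ℤ → Submodule ℂ V'} {R c x R' c' x' : ℤ} (h : HP3 F R c x)
    (h' : HP F' R' c' x') (e : ∀ k, finrank ℂ (F k) = finrank ℂ (F' k)) : x = x' := by
  obtain ⟨a, ha⟩ := eventually_atTop.1 h
  obtain ⟨b, hb⟩ := eventually_atTop.1 h'
  have key : ∀ i ≥ max (max a b) 0, (R - R') * (9 * i ^ 2 + 9 * i) + 6 * (c - c') * i +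
      2 * (x - x') = 0 := by
    intro i hi
    have h1 := ha i (by omega)
    have h2 := hb (3 * i) (by omega)
    rw [e] at h1
    linear_combination h2 - h1
  have h0 := key _ le_rfl
  have h1 := key (max (max a b) 0 + 1) (by omega)
  have h2 := key (max (max a b) 0 + 2) (by omega)
  generalize max (max a b) 0 = n at h0 h1 h2
  have h3 : R - R' = 0 := by nlinarith
  rw [h3] at h0 h1
  have h4 : c - c' = 0 := by nlinarith
  rw [h4] at h0
  omega

theorem main3 (hOLM : stOLM) (hCTX : stCTX) (hEV : stEV) (hHOM : stHOM) (hHPX : stHPX) :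
    stMAIN3 := by
  intro M h1 h2 h3 h4 ι _ N x v w hx hv hw
  by_cases h5 : ∀ v : Fin 4 → K, v ⬝ᵥ (M.map ev).mulVec v = 0 → v = 0
  · let C : Cx := ⟨M, h1, h2, h3, h4, h5⟩
    obtain ⟨Φ, hΦ⟩ := hEV C (hCTX C)
    have h6 : ∀ i j, x i j = eu (Φ (N i)) (Φ (N j)) := by
      intro i j
      obtain ⟨R, c, h⟩ := hx i j
      have : FiniteDimensional K ((Φ (N i)).V →ₗ[C.B] (Φ (N j)).V) :=
        Module.Finite.of_injective (LinearMap.restrictScalarsₗ K C.B (Φ (N i)).V (Φ (N j)).V K)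
          (LinearMap.restrictScalars_injective K)
      exact hp3_uniq h (hHPX _ _ (hHOM C (hCTX C) _ _).1) (hΦ _ _)
    simp only [h6] at hv hw
    exact hOLM C ι (fun i => Φ (N i)) v w hv hw
  · push Not at h5
    obtain ⟨v, h6, h7⟩ := h5
    exact rational_of_isotropic_matrix M h2 h3 v h7 h6

variable {Mx : Matrix (Fin 4) (Fin 4) A3}

section

variable {M : Type} [AddCommGroup M] [Module A3 M] [Module ℂ M] [IsScalarTower ℂ A3 M]
  {M' : Type} [AddCommGroup M'] [Module A3 M'] [Module ℂ M'] [IsScalarTower ℂ A3 M']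
  {G : ℤ → Submodule ℂ M} {G' : ℤ → Submodule ℂ M'}

/-- the action of the four generators -/
noncomputable def ee (N : LM Mx G) : Fin 4 → Module.End A3 (Lam M) :=
  ![LL M Mx 0, LL M Mx 1, LL M Mx 2, N.E]

theorem ee_deg (hM : FB Mx) (hG : IsGr G) (N : LM Mx G) (i : Fin 4) :
    ee N i ∈ Dk (lamG G) (lamG G) (1 + 2 * wz i) := by
  fin_cases i
  exacts [dk_LL hM hG 0, dk_LL hM hG 1, dk_LL hM hG 2, N.deg]

theorem ee_cl (hM : FB Mx) (N : LM Mx G) (i j : Fin 4) :
    ee N i * ee N j + ee N j * ee N i = (2 * Mx i j) • 1 := by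
  have h1 : ∀ i : Fin 3, ee N i.castSucc = LL M Mx i := fun i => by fin_cases i <;> rfl
  have h2 : ee N (Fin.last 3) = N.E := rfl
  induction i using Fin.lastCases with
  | last =>
    induction j using Fin.lastCases with
    | last =>
      rw [h2, N.sq, ← add_smul, two_mul]
      rfl
    | cast j =>
      rw [h1, h2, N.anti, hM.symm.apply]
      rfl
  | cast i =>
    induction j using Fin.lastCases with
    | last =>
      rw [h1, h2, add_comm, N.anti]
      rfl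
    | cast j => rw [h1, h1, LL_anti Mx hM.symm]

theorem mem_zc (N : LM Mx G) (N' : LM Mx G') (k : ℤ) (f : Lam M →ₗ[A3] Lam M') :
    f ∈ ZC N N' k ↔ f ∈ Dk (lamG G) (lamG G') k ∧ ∀ i, f ∘ₗ ee N i = ee N' i ∘ₗ f := by
  constructor
  · rintro ⟨⟨h1, h2⟩, h3⟩
    simp only [one_smul] at h2
    refine ⟨h1, fun i => ?_⟩
    fin_cases i
    exacts [h2 0, h2 1, h2 2, h3.symm]
  · rintro ⟨h1, h2⟩
    refine ⟨⟨h1, fun i => ?_⟩, (h2 3).symm⟩
    rw [one_smul]
    fin_cases i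
    exacts [h2 0, h2 1, h2 2]

end

/-- the basis, indexed by numbers -/
noncomputable def bN (r : ℕ) : Basis (Fin (8 * r)) A3 (Lam (Fin r → A3)) :=
  (bL r).reindex finProdFinEquiv

/-- the degrees of the basis -/
def gN {r : ℕ} (g : Fin r → ℤ) (x : Fin (8 * r)) : ℤ :=
  lv (finProdFinEquiv.symm x).1 + g (finProdFinEquiv.symm x).2

theorem bs_N {r : ℕ} (g : Fin r → ℤ) : Bs (bN r) (lamG (frG g)) (gN g) := fun a v => by
  rw [bs_lam g a v, ← (finProdFinEquiv (m := 8) (n := r)).symm.forall_congr_right]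
  simp only [bN, Basis.repr_reindex_apply]
  rfl

/-- the module given by matrices -/
noncomputable def cm (hM : FB Mx) (N : FM Mx) : CM Mx where
  r := 8 * N.r
  g := gN N.g
  e i := LinearMap.toMatrix (bN N.r) (bN N.r) (ee N.N i)
  deg i := (dk_iff (bs_N N.g) (bs_N N.g) _ _).1 (ee_deg hM (isGr_fr _) N.N i)
  cl i j := by
    rw [← LinearMap.toMatrix_mul, ← LinearMap.toMatrix_mul, ← map_add, ee_cl hM, map_smul,
      LinearMap.toMatrix_one]

theorem chom_rank (hM : FB Mx) (N N' : FM Mx) (k : ℤ) :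
    finrank ℂ (CHom (cm hM N) (cm hM N') k) = finrank ℂ (ZC N.N N'.N (2 * k)) := by
  let e : (Lam (Fin N.r → A3) →ₗ[A3] Lam (Fin N'.r → A3)) ≃ₗ[ℂ]
      Matrix (Fin (cm hM N').r) (Fin (cm hM N).r) P3 :=
    (LinearMap.toMatrix (bN N.r) (bN N'.r)).restrictScalars ℂ
  refine (e.ofSubmodules _ _ ?_).finrank_eq.symm
  ext φ
  obtain ⟨f, rfl⟩ := e.surjective φ
  rw [Submodule.mem_map_equiv, e.symm_apply_apply, mem_zc, dk_iff (bs_N N.g) (bs_N N'.g)]
  refine and_congr_right fun _ => forall_congr' fun i => ?_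
  rw [← (LinearMap.toMatrix (bN N.r) (bN N'.r)).injective.eq_iff,
    LinearMap.toMatrix_comp _ (bN N.r), LinearMap.toMatrix_comp _ (bN N'.r)]
  rfl

/-- the degrees of the generators -/
noncomputable def gam (N : FM Mx) : ℤ →₀ ℤ := ∑ c, Finsupp.single (N.g c) 1

theorem hp3_cm (hM : FB Mx) (N N' : FM Mx) (hb : ∃ b : ℤ, ∀ k ≥ b,
    finrank ℂ (HQ (ZC N.N N'.N (3 * k)) (BC N.N N'.N (3 * k))) = 0) :
    ∃ R c, HP3 (CHom (cm hM N) (cm hM N')) R c (chS N N' + T3.BB (gam N) (gam N')) := by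
  obtain ⟨b, h⟩ := zc_rank hM N N' hb
  refine ⟨2 * (N'.r * N.r), ∑ a, ∑ c, (N.g c - N'.g a) - 3 * (N'.r * N.r),
    eventually_atTop.2 ⟨b, fun i hi => ?_⟩⟩
  have h1 : T3.BB (gam N) (gam N') = ∑ a, ∑ c, bet (N.g c - N'.g a) := by
    simp only [gam, map_sum, LinearMap.sum_apply, BB_single]
  have h2 : ∑ a, ∑ c, 3 * (N.g c - N'.g a) * i = 3 * i * ∑ a, ∑ c, (N.g c - N'.g a) := by
    simp only [Finset.mul_sum]
    exact Finset.sum_congr rfl fun a _ => Finset.sum_congr rfl fun c _ => by ring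
  rw [chom_rank, show 2 * (3 * i) = 6 * i by ring, h i hi, h1]
  simp only [Finset.sum_add_distrib, h2, Finset.sum_const, Finset.card_univ, Fintype.card_fin,
    nsmul_eq_mul]
  ring

end Vale.Agent.P287Z.T3
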