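import Vale.Agent.P287Z.T3.Fin
import Vale.Agent.P271.Hilb.UPoly

/-!
# Dimensions of spaces of homogeneous maps
-/

set_option linter.unusedSectionVars false

open MvPolynomial Module

namespace Vale.Agent.P287Z.T3

open O.V T Gr

/-- the forms of doubled degree `t` -/
noncomputable abbrev HS (t : ℤ) : Submodule ℂ A3 :=
  weightedHomogeneousSubmodule ℂ (fun _ : Fin 3 => (2 : ℤ)) t

theorem hs_two_mul (n : ℕ) : HS (2 * (n : ℤ)) = homogeneousSubmodule (Fin 3) ℂ n := by
  ext f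
  exact ⟨fun h => hom_of_hg h, fun h => hg_of_hom h⟩

theorem hs_bot {t : ℤ} (h : ∀ k : ℕ, 2 * (k : ℤ) ≠ t) : HS t = ⊥ :=
  eq_bot_iff.2 fun _ hf => hga_eq_zero hf h

instance hs_finite (t : ℤ) : Module.Finite ℂ (HS t) := by
  by_cases h : ∃ k : ℕ, 2 * (k : ℤ) = t
  · obtain ⟨k, rfl⟩ := h
    rw [hs_two_mul]
    exact P271.Hilb.finite_homogeneousSubmodule 2 k
  · rw [hs_bot fun k hk => h ⟨k, hk⟩]
    infer_instance

/-- the dimension of the space of forms -/
noncomputable def aa (t : ℤ) : ℤ := finrank ℂ (HS t)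

theorem aa_zero {t : ℤ} (h : ∀ k : ℕ, 2 * (k : ℤ) ≠ t) : aa t = 0 := by
  rw [aa, hs_bot h, finrank_bot, Nat.cast_zero]

theorem aa_even {u : ℤ} (h : -2 ≤ u) : 2 * aa (2 * u) = (u + 2) * (u + 1) := by
  by_cases h0 : 0 ≤ u
  · obtain ⟨n, rfl⟩ := Int.eq_ofNat_of_zero_le h0
    rw [aa, hs_two_mul, P271.Hilb.finrank_homogeneousSubmodule 2 n]
    have h1 : (n + 2).choose 2 * 2 = (n + 2) * (n + 1) := by
      rw [Nat.choose_two_right, Nat.div_mul_cancel]
      · rfl
      · exact (Nat.even_mul_pred_self _).two_dvd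
    rw [mul_comm]
    exact_mod_cast h1
  · rw [aa_zero fun k hk => by lia]
    obtain rfl | rfl : u = -2 ∨ u = -1 := by lia
    all_goals norm_num

/-- the Hilbert function of the Clifford algebra in three generators -/
noncomputable def cc (t : ℤ) : ℤ := ∑ I, aa (t - lv I)

theorem cc_eq (t : ℤ) : cc t = aa t + 3 * aa (t - 1) + 3 * aa (t - 2) + aa (t - 3) := by
  simp only [cc, Fin.sum_univ_eight, lv, Matrix.cons_val, sub_zero]
  ring

theorem cc_neg {t : ℤ} (h : t < 0) : cc t = 0 := by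
  rw [cc_eq, aa_zero fun k hk => by lia, aa_zero fun k hk => by lia, aa_zero fun k hk => by lia,
    aa_zero fun k hk => by lia]
  rfl

theorem cc_pos {t : ℤ} (h : -2 ≤ t) : 2 * cc t = (t + 2) * (t + 1) := by
  obtain ⟨u, rfl | rfl⟩ := Int.even_or_odd' t
  · have h1 := aa_even (u := u) (by lia)
    have h2 := aa_even (u := u - 1) (by lia)
    rw [cc_eq, aa_zero (t := 2 * u - 1) fun k hk => by lia,
      aa_zero (t := 2 * u - 3) fun k hk => by lia, show 2 * u - 2 = 2 * (u - 1) by ring]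
    linear_combination h1 + 3 * h2
  · have h1 := aa_even (u := u) (by lia)
    have h2 := aa_even (u := u - 1) (by lia)
    rw [cc_eq, aa_zero (t := 2 * u + 1) fun k hk => by lia,
      aa_zero (t := 2 * u + 1 - 2) fun k hk => by lia, show 2 * u + 1 - 3 = 2 * (u - 1) by ring,
      add_sub_cancel_right]
    linear_combination 3 * h1 + h2

/-- matrices with entries of prescribed degrees -/
def MS {κ ι : Type} (q : κ → ι → ℤ) : Submodule ℂ (Matrix κ ι A3) where
  carrier := {φ | ∀ a b, Hg (q a b) (φ a b)}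
  zero_mem' := fun _ _ => T.hg_zero _
  add_mem' := fun h h' a b => T.hg_add (h a b) (h' a b)
  smul_mem' := fun c _ h a b => T.hg_smul c (h a b)

/-- the entries -/
def msE {κ ι : Type} (q : κ → ι → ℤ) : MS q ≃ₗ[ℂ] ∀ a b, HS (q a b) where
  toFun φ a b := ⟨φ.1 a b, φ.2 a b⟩
  invFun φ := ⟨Matrix.of fun a b => (φ a b).1, fun a b => (φ a b).2⟩
  map_add' _ _ := rfl
  map_smul' _ _ := rfl
  left_inv _ := rfl
  right_inv _ := rfl

section

variable {ι κ : Type} [Fintype ι] [Fintype κ] [DecidableEq ι]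
  {M M' : Type} [AddCommGroup M] [Module A3 M] [AddCommGroup M'] [Module A3 M']
  [Module ℂ M] [IsScalarTower ℂ A3 M] [Module ℂ M'] [IsScalarTower ℂ A3 M']

/-- `b` is a homogeneous basis, with degrees `g` -/
def Bs (b : Basis ι A3 M) (G : ℤ → Submodule ℂ M) (g : ι → ℤ) : Prop :=
  ∀ a v, v ∈ G a ↔ ∀ i, Hg (a - g i) (b.repr v i)

variable {b : Basis ι A3 M} {G : ℤ → Submodule ℂ M} {g : ι → ℤ}
  {b' : Basis κ A3 M'} {G' : ℤ → Submodule ℂ M'} {g' : κ → ℤ}

theorem dk_iff (h : Bs b G g) (h' : Bs b' G' g') (k : ℤ) (f : M →ₗ[A3] M') :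
    f ∈ Dk G G' k ↔ LinearMap.toMatrix b b' f ∈ MS fun i j => g j + k - g' i := by
  constructor
  · intro hf i j
    rw [LinearMap.toMatrix_apply]
    refine (h' _ _).1 (hf (g j) _ ((h _ _).2 fun l => ?_)) i
    rw [Basis.repr_self, Finsupp.single_apply]
    split_ifs with hl
    · rw [hl, sub_self]
      exact hga_one
    · exact hga_zero _
  · intro hf a v hv
    refine (h' _ _).2 fun i => ?_
    rw [← LinearMap.toMatrix_mulVec_repr b b' f v, Matrix.mulVec, dotProduct]
    exact hga_sum _ fun j _ => hga_mul' (hf i j) ((h _ _).1 hv j) (by ring)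

theorem dk_equiv (h : Bs b G g) (h' : Bs b' G' g') (k : ℤ) :
    Nonempty (Dk G G' k ≃ₗ[ℂ] ∀ i j, HS (g j + k - g' i)) := by
  let e := (LinearMap.toMatrix b b').restrictScalars ℂ
  refine ⟨(e.ofSubmodules _ _ ?_).trans (msE fun i j => g j + k - g' i)⟩
  ext φ
  obtain ⟨f, rfl⟩ := e.surjective φ
  rw [Submodule.mem_map_equiv, e.symm_apply_apply]
  exact dk_iff h h' k f

theorem dk_finite (h : Bs b G g) (h' : Bs b' G' g') (k : ℤ) : Module.Finite ℂ (Dk G G' k) := by
  obtain ⟨e⟩ := dk_equiv h h' k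
  exact Module.Finite.equiv e.symm

theorem dk_rank (h : Bs b G g) (h' : Bs b' G' g') (k : ℤ) :
    (finrank ℂ (Dk G G' k) : ℤ) = ∑ i, ∑ j, aa (g j + k - g' i) := by
  obtain ⟨e⟩ := dk_equiv h h' k
  rw [e.finrank_eq, finrank_pi_fintype, Nat.cast_sum]
  refine Finset.sum_congr rfl fun i _ => ?_
  rw [finrank_pi_fintype, Nat.cast_sum]
  rfl

theorem dk_bot (h : Bs b G g) (h' : Bs b' G' g') : ∃ k₀ : ℤ, ∀ k ≤ k₀, Dk G G' k = ⊥ := by
  obtain ⟨c, hc⟩ := (Set.finite_range fun x : κ × ι => g x.2 - g' x.1).bddAbove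
  refine ⟨-c - 1, fun k hk => eq_bot_iff.2 fun f hf => ?_⟩
  rw [Submodule.mem_bot]
  apply (LinearMap.toMatrix b b').injective
  rw [map_zero]
  ext1 i j
  have h1 : g j - g' i ≤ c := hc ⟨(i, j), rfl⟩
  exact hga_neg_eq_zero ((dk_iff h h' k f).1 hf i j) (by lia)

/-- the parity operator -/
noncomputable def par (b : Basis ι A3 M) (g : ι → ℤ) : Module.End A3 M :=
  Matrix.toLin b b (Matrix.diagonal fun i => if Even (g i) then 1 else -1)

theorem par_sq : par b g * par b g = 1 := by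
  apply (LinearMap.toMatrix b b).injective
  rw [LinearMap.toMatrix_mul, par, LinearMap.toMatrix_toLin, LinearMap.toMatrix_one,
    Matrix.diagonal_mul_diagonal, ← Matrix.diagonal_one]
  congr 1
  funext i
  split_ifs <;> simp

theorem par_deg (h : Bs b G g) : par b g ∈ Dk G G 0 := by
  rw [dk_iff h h, par, LinearMap.toMatrix_toLin]
  intro i j
  by_cases hij : i = j
  · subst hij
    simp only [Matrix.diagonal_apply_eq, add_zero, sub_self]
    split_ifs
    · exact hga_one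
    · exact hga_neg hga_one
  · rw [Matrix.diagonal_apply_ne _ hij]
    exact hga_zero _

theorem par_anti (h : Bs b G g) {k : ℤ} (hk : Odd k) {f : Module.End A3 M} (hf : f ∈ Dk G G k) :
    par b g * f = -(f * par b g) := by
  apply (LinearMap.toMatrix b b).injective
  rw [map_neg, LinearMap.toMatrix_mul, LinearMap.toMatrix_mul, par, LinearMap.toMatrix_toLin]
  ext1 i j
  rw [Matrix.diagonal_mul, Matrix.neg_apply, Matrix.mul_diagonal]
  obtain ⟨u, rfl⟩ := hk
  by_cases h2 : 2 ∣ g j + (2 * u + 1) - g i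
  · by_cases hi : Even (g i)
    · have hj : ¬ Even (g j) := by
        rw [even_iff_two_dvd] at hi ⊢
        omega
      rw [if_pos hi, if_neg hj]
      ring
    · have hj : Even (g j) := by
        rw [even_iff_two_dvd] at hi ⊢
        omega
      rw [if_neg hi, if_pos hj]
      ring
  · rw [hga_odd_eq_zero ((dk_iff h h _ f).1 hf i j) h2]
    simp

end

theorem bs_fr {r : ℕ} (g : Fin r → ℤ) : Bs (Pi.basisFun A3 (Fin r)) (frG g) g := fun a v => by
  simp only [Pi.basisFun_repr]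
  rfl

/-- the basis of `Λ ⊗ A ^ r` -/
noncomputable def bL (r : ℕ) : Basis (Fin 8 × Fin r) A3 (Lam (Fin r → A3)) :=
  Basis.ofEquivFun (LinearEquiv.curry A3 A3 (Fin 8) (Fin r)).symm

theorem bs_lam {r : ℕ} (g : Fin r → ℤ) :
    Bs (bL r) (lamG (frG g)) fun x => lv x.1 + g x.2 := fun a v => by
  simp only [bL, Basis.ofEquivFun_repr_apply, Prod.forall, ← sub_sub]
  rfl

theorem dk_lam_rank {r r' : ℕ} (g : Fin r → ℤ) (g' : Fin r' → ℤ) (k : ℤ) :
    (finrank ℂ (Dk (frG g) (lamG (frG g')) k) : ℤ) = ∑ i, ∑ j, cc (k + (g j - g' i)) := by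
  rw [dk_rank (bs_fr g) (bs_lam g'), Fintype.sum_prod_type_right]
  refine Finset.sum_congr rfl fun i _ => ?_
  rw [Finset.sum_comm]
  refine Finset.sum_congr rfl fun j _ => Finset.sum_congr rfl fun I _ => ?_
  congr 1
  ring

end Vale.Agent.P287Z.T3
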