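import Vale.Agent.P287Z.T.Gm
import Vale.Agent.P287Z.St

/-!
# Exactness in large degrees
-/

open MvPolynomial

namespace Vale.Agent.P287Z.T3

open O.V T Gr

variable {ν : ℕ}

theorem big_mem {κ : Type} (J : κ → Sn ν) (hJ : ∀ z : Fin ν → ℂ, (∀ k, eval z (J k) = 0) → z = 0)
    (I : Ideal (Sn ν)) (hI : ∀ k, J k ∈ I) : ∃ N : ℤ, ∀ a ≥ N, ∀ f, Hg a f → f ∈ I := by
  have h1 : ∀ i : Fin ν, ∃ N : ℕ, (X i : Sn ν) ^ N ∈ I := by
    intro i
    have h2 : (X i : Sn ν) ∈ vanishingIdeal ℂ (zeroLocus ℂ I) := by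
      intro x hx
      have h3 : x = 0 := hJ x fun k => by
        have h4 := hx _ (hI k)
        rwa [aeval_eq_eval] at h4
      rw [h3, aeval_X]
      rfl
    rw [vanishingIdeal_zeroLocus_eq_radical] at h2
    exact h2
  choose N hN using h1
  refine ⟨2 * (∑ i, N i : ℕ) + 1, fun a ha f hf => ?_⟩
  rw [f.as_sum]
  refine I.sum_mem fun m hm => ?_
  have h2 := hg_iff.1 hf m hm
  obtain ⟨i, hi⟩ : ∃ i, N i ≤ m i := by
    by_contra h
    push Not at h
    have h3 : m.degree ≤ ∑ i, N i := by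
      rw [Finsupp.degree_eq_sum]
      exact Finset.sum_le_sum fun i _ => (h i).le
    lia
  have h3 : (monomial m (f.coeff m) : Sn ν) =
      monomial (m - Finsupp.single i (N i)) (f.coeff m) * X i ^ N i := by
    rw [X_pow_eq_monomial, monomial_mul, mul_one, tsub_add_cancel_of_le]
    exact Finsupp.single_le_iff.2 hi
  rw [h3]
  exact I.mul_mem_left _ (hN i)

/-- a subquotient which is supported at the origin vanishes in large degrees -/
theorem fin_abs {V : Type} [AddCommGroup V] [Module (Sn ν) V] [IsNoetherian (Sn ν) V]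
    (H : ℤ → V → Prop) (π : ℤ → V →+ V) (h1 : ∀ a v, H a v → π a v = v)
    (h2 : ∀ a b (r : Sn ν) z, H b z → π a (r • z) = hpart (a - b) r • z)
    (Z B : Submodule (Sn ν) V) {κ : Type} (J : κ → Sn ν)
    (hJ : ∀ z : Fin ν → ℂ, (∀ k, eval z (J k) = 0) → z = 0) (hZ : ∀ k, ∀ v ∈ Z, J k • v ∈ B) :
    ∃ a₀ : ℤ, ∀ a ≥ a₀, ∀ v ∈ Z, H a v → v ∈ B := by
  obtain ⟨N, hN⟩ := big_mem J hJ (B.colon Z) fun k => Submodule.mem_colon.2 (hZ k)
  let S : ℕ →o Submodule (Sn ν) V :=
    ⟨fun d => Submodule.span _ {z | z ∈ Z ∧ ∃ b : ℤ, b ≤ d ∧ H b z}, fun d e hde =>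
      Submodule.span_mono fun z ⟨hz, b, hb, h⟩ => ⟨hz, b, hb.trans (by exact_mod_cast hde), h⟩⟩
  obtain ⟨d, hd⟩ := monotone_stabilizes_iff_noetherian.2 inferInstance S
  refine ⟨d + max N 0, fun a ha v hv hH => ?_⟩
  have h3 : v ∈ S d := by
    rw [hd a.toNat (by lia)]
    exact Submodule.subset_span ⟨hv, a, by lia, hH⟩
  have h4 : ∀ w ∈ S d, ∀ r : Sn ν, π a (r • w) ∈ B := by
    intro w hw
    induction hw using Submodule.span_induction with
    | mem z hz =>
      intro r
      obtain ⟨hz, b, hb, h⟩ := hz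
      rw [h2 a b r z h]
      exact Submodule.mem_colon.1 (hN (a - b) (by lia) _ (hga_hpart _ _)) z hz
    | zero => intro r; rw [smul_zero, map_zero]; exact B.zero_mem
    | add x y _ _ hx hy => intro r; rw [smul_add, map_add]; exact B.add_mem (hx r) (hy r)
    | smul s x _ hx => intro r; rw [smul_smul]; exact hx _
  have h5 := h4 v h3 1
  rwa [one_smul, h1 a v hH] at h5

theorem hpart_zero (k : ℤ) : hpart k (0 : Sn ν) = 0 := by simp [hpart]

theorem pderiv_sq {W : Sn ν} {n : ℕ} (X : GMF W n) (a : Fin ν) :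
    X.d.map (pderiv a) * X.d + X.d * X.d.map (pderiv a) =
      pderiv a W • (1 : Matrix (Fin n) (Fin n) (Sn ν)) := by
  ext1 i j
  have h := congr_arg (pderiv a) (congr_fun (congr_fun X.sq i) j)
  rw [Matrix.mul_apply, map_sum] at h
  rw [Matrix.add_apply, Matrix.mul_apply, Matrix.mul_apply, ← Finset.sum_add_distrib]
  refine Eq.trans (Finset.sum_congr rfl fun l _ => ?_) (h.trans ?_)
  · rw [Derivation.leibniz, Matrix.map_apply, Matrix.map_apply, smul_eq_mul, smul_eq_mul]
    ring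
  · by_cases hij : i = j
    · subst hij
      simp
    · simp [Matrix.one_apply_ne hij]

/-- closed maps of large degree are null-homotopic -/
theorem zm_le_bm {W : Sn ν} (hs : IsSmoothForm W) {m n : ℕ} (X : GMF W m) (Y : GMF W n) :
    ∃ j₀ : ℤ, ∀ j ≥ j₀, ZM X Y j ≤ BM X Y j := by
  have : IsNoetherian (Sn ν) (Matrix (Fin n) (Fin m) (Sn ν)) :=
    inferInstanceAs (IsNoetherian (Sn ν) (Fin n → Fin m → Sn ν))
  let π : ℤ → Matrix (Fin n) (Fin m) (Sn ν) →+ Matrix (Fin n) (Fin m) (Sn ν) := fun j =>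
    { toFun := fun g => Matrix.of fun i l => hpart (j + X.p l - Y.p i) (g i l)
      map_zero' := by ext1 i l; exact hpart_zero (j + X.p l - Y.p i)
      map_add' := fun g g' => by ext1 i l; exact hpart_add _ _ _ }
  have hπ : ∀ j g, (∀ i l, Hg (j + X.p l - Y.p i) (g i l)) → π j g = g := fun j g h => by
    ext1 i l
    exact hpart_eq_self (h i l)
  let L : Matrix (Fin n) (Fin m) (Sn ν) →ₗ[Sn ν] Matrix (Fin n) (Fin m) (Sn ν) :=
    { toFun := fun g => Y.d * g
      map_add' := fun _ _ => Matrix.mul_add _ _ _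
      map_smul' := fun _ _ => Matrix.mul_smul _ _ _ }
  let R : Matrix (Fin n) (Fin m) (Sn ν) →ₗ[Sn ν] Matrix (Fin n) (Fin m) (Sn ν) :=
    { toFun := fun g => g * X.d
      map_add' := fun _ _ => Matrix.add_mul _ _ _
      map_smul' := fun _ _ => Matrix.smul_mul _ _ _ }
  obtain ⟨j₀, h⟩ := fin_abs (fun j g => ∀ i l, Hg (j + X.p l - Y.p i) (g i l)) π hπ
    (fun a b r z hz => by
      ext1 i l
      change hpart _ (r * z i l) = hpart _ r * z i l
      rw [mul_comm r, hpart_mul (hz i l), mul_comm]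
      congr 2
      ring)
    (LinearMap.ker (L - R)) (LinearMap.range (L + R)) (fun a => pderiv a W) hs (by
      intro a g hg
      have h1 : Y.d * g = g * X.d := sub_eq_zero.1 hg
      refine ⟨Y.d.map (pderiv a) * g, ?_⟩
      change Y.d * (Y.d.map (pderiv a) * g) + Y.d.map (pderiv a) * g * X.d = _
      rw [Matrix.mul_assoc, ← h1, ← Matrix.mul_assoc, ← Matrix.mul_assoc, ← Matrix.add_mul,
        add_comm, pderiv_sq, Matrix.smul_mul, Matrix.one_mul])
  refine ⟨j₀, fun j hj g hg => ?_⟩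
  obtain ⟨u, hu⟩ := h j hj g (sub_eq_zero.2 hg.2) hg.1
  refine ⟨π (j - 3) u, fun i l => hga_hpart _ _, ?_⟩
  rw [← hπ j g hg.1, ← hu]
  ext1 i l
  change hpart _ (∑ t, Y.d i t * u t l + ∑ t, u i t * X.d t l) =
    ∑ t, Y.d i t * hpart _ (u t l) + ∑ t, hpart _ (u i t) * X.d t l
  rw [hpart_add, hpart_sum, hpart_sum]
  congr 1
  · refine Finset.sum_congr rfl fun t _ => ?_
    rw [hpart_mul (Y.deg i t)]
    congr 2
    ring
  · refine Finset.sum_congr rfl fun t _ => ?_
    rw [mul_comm, hpart_mul (X.deg t l), mul_comm]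
    congr 2
    ring

theorem hg_x0 {a : ℤ} {f : Sn 6} (h : Hg a f) : Hg a (x0 f) := by
  by_cases ha : ∃ k : ℕ, 2 * (k : ℤ) = a
  · obtain ⟨k, rfl⟩ := ha
    have h1 := (hom_of_hg h).aeval (n := 1) (![0, 0, 0, X 0, X 1, X 2] : Fin 6 → A3) (by
      intro i
      fin_cases i
      all_goals first | exact isHomogeneous_zero _ _ _ | exact isHomogeneous_X _ _)
    rw [one_mul] at h1
    exact hg_of_hom h1
  · rw [hga_eq_zero h fun k hk => ha ⟨k, hk⟩, map_zero]
    exact hga_zero _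

theorem eval_x0 (y : Fin 3 → ℂ) (f : Sn 6) :
    eval y (x0 f) = eval ![0, 0, 0, y 0, y 1, y 2] f := by
  have : (aeval y).comp x0 = aeval (R := ℂ) ![0, 0, 0, y 0, y 1, y 2] := by
    ext i
    fin_cases i <;> simp [x0]
  rw [← aeval_eq_eval, ← aeval_eq_eval, ← this]
  rfl

/-- **conic exactness** -/
theorem exL {W : Sn 6} (hs : IsSmoothForm W) {n : ℕ} (X : GMF W n) : ExL X := by
  let π : ℤ → (Fin n → A3) →+ (Fin n → A3) := fun j =>
    { toFun := fun g i => hpart (j - X.p i) (g i)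
      map_zero' := by ext1 i; exact hpart_zero _
      map_add' := fun g g' => by ext1 i; exact hpart_add _ _ _ }
  have hπ : ∀ j g, g ∈ frG X.p j → π j g = g := fun j g h => by
    ext1 i
    exact hpart_eq_self (h i)
  obtain ⟨j₀, h⟩ := fin_abs (fun j g => g ∈ frG X.p j) π hπ
    (fun a b r z hz => by
      ext1 i
      change hpart _ (r * z i) = hpart _ r * z i
      rw [mul_comm r, hpart_mul (hz i), mul_comm]
      congr 2
      ring)
    (LinearMap.ker (X.d.map x0).mulVecLin) (LinearMap.range (X.d.map x0).mulVecLin)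
    (fun a => x0 (pderiv a W)) (by
      intro y hy
      have h1 := hs ![0, 0, 0, y 0, y 1, y 2] fun a => by rw [← eval_x0, hy]
      funext i
      fin_cases i
      · exact congr_fun h1 3
      · exact congr_fun h1 4
      · exact congr_fun h1 5) (by
      intro a g hg
      have h1 : (X.d.map x0).mulVec g = 0 := hg
      have h2 := congr_arg (x0.toRingHom.mapMatrix) (pderiv_sq X a)
      rw [map_add, map_mul, map_mul] at h2
      have h3 : x0.toRingHom.mapMatrix (pderiv a W • (1 : Matrix (Fin n) (Fin n) (Sn 6))) =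
          x0 (pderiv a W) • (1 : Matrix (Fin n) (Fin n) A3) := by
        ext1 i j
        by_cases hij : i = j
        · subst hij
          simp
        · simp [Matrix.one_apply_ne hij]
      refine ⟨((X.d.map (pderiv a)).map x0).mulVec g, ?_⟩
      have h4 := congr_arg (fun K => Matrix.mulVec K g) (h2.trans h3)
      simp only [Matrix.add_mulVec, ← Matrix.mulVec_mulVec, Matrix.smul_mulVec,
        Matrix.one_mulVec] at h4
      rw [← h4]
      change _ = Matrix.mulVec _ ((X.d.map x0).mulVec g) + _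
      rw [h1, Matrix.mulVec_zero, zero_add]
      rfl)
  refine ⟨j₀, fun j hj g hg h0 => ?_⟩
  obtain ⟨u, hu⟩ := h j hj g h0 hg
  refine ⟨π (j - 3) u, fun i => hga_hpart _ _, ?_⟩
  rw [← hπ j g hg, ← hu]
  ext1 i
  change ∑ t, x0 (X.d i t) * hpart _ (u t) = hpart _ (∑ t, x0 (X.d i t) * u t)
  rw [hpart_sum]
  refine Finset.sum_congr rfl fun t _ => ?_
  rw [hpart_mul (hg_x0 (X.deg i t))]
  congr 2
  ring

end Vale.Agent.P287Z.T3
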