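import Vale.Agent.P287Z.T3.Cnt
import Vale.Agent.P287Z.T3.Ar
import Vale.Agent.P287Z.T.Lam2

/-!
# The Hilbert function of the module of homomorphisms
-/

set_option linter.unusedSectionVars false

open MvPolynomial Module

namespace Vale.Agent.P287Z.T3

open O.V T

theorem rk_nul {U V : Type} [AddCommGroup U] [Module ℂ U] [AddCommGroup V] [Module ℂ V]
    (P : Submodule ℂ U) [Module.Finite ℂ P] (D : P →ₗ[ℂ] V) :
    finrank ℂ (LinearMap.range D) + finrank ℂ (LinearMap.ker D) = finrank ℂ P :=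
  LinearMap.finrank_range_add_finrank_ker D

theorem bc_rank' {M M' : Type} [AddCommGroup M] [Module A3 M] [AddCommGroup M'] [Module A3 M']
    [Module ℂ M] [IsScalarTower ℂ A3 M] [Module ℂ M'] [IsScalarTower ℂ A3 M']
    {G : ℤ → Submodule ℂ M} {G' : ℤ → Submodule ℂ M'} {Mx : Matrix (Fin 4) (Fin 4) A3}
    (N : LM Mx G) (N' : LM Mx G') (ε : Lam M' →ₗ[A3] Lam M') (h1 : ε ∘ₗ ε = LinearMap.id)
    (h2 : ε ∈ PP Mx (-1) G' G' 0) (h3 : ε ∘ₗ N'.E = -(N'.E ∘ₗ ε)) (k : ℤ)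
    [Module.Finite ℂ (PP Mx (-1) G G' k)] :
    finrank ℂ (BC N N' (k + 3)) + finrank ℂ (ZC N N' k) = finrank ℂ (PP Mx (-1) G G' k) := by
  have h4 : N'.E ∘ₗ ε = -(ε ∘ₗ N'.E) := by rw [h3, neg_neg]
  let D : PP Mx (-1) G G' k →ₗ[ℂ] (Lam M →ₗ[A3] Lam M') :=
    { toFun := fun h => N'.E ∘ₗ h.1 + h.1 ∘ₗ N.E
      map_add' := fun f g => by
        rw [Submodule.coe_add, LinearMap.add_comp, LinearMap.comp_add]
        abel
      map_smul' := fun c f => by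
        rw [Submodule.coe_smul, LinearMap.smul_comp, LinearMap.comp_smul, smul_add]
        rfl }
  have hD : ∀ h, h ∈ LinearMap.ker D ↔ N'.E ∘ₗ h.1 + h.1 ∘ₗ N.E = 0 := fun _ => LinearMap.mem_ker
  have h5 : LinearMap.range D = BC N N' (k + 3) := by
    ext f
    constructor
    · rintro ⟨h, rfl⟩
      exact ⟨h.1, pp_of_eq h.2 rfl (by ring), rfl⟩
    · rintro ⟨h, hh, rfl⟩
      exact ⟨⟨h, pp_of_eq hh rfl (by ring)⟩, rfl⟩
  have h7 : ∀ f : Lam M →ₗ[A3] Lam M', N'.E ∘ₗ f = f ∘ₗ N.E →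
      N'.E ∘ₗ (ε ∘ₗ f) + (ε ∘ₗ f) ∘ₗ N.E = 0 := fun f hf => by
    rw [← LinearMap.comp_assoc, h4, LinearMap.neg_comp, LinearMap.comp_assoc, hf,
      LinearMap.comp_assoc, neg_add_cancel]
  have h8 : ∀ f : Lam M →ₗ[A3] Lam M', N'.E ∘ₗ f + f ∘ₗ N.E = 0 →
      N'.E ∘ₗ (ε ∘ₗ f) = (ε ∘ₗ f) ∘ₗ N.E := fun f hf => by
    rw [← LinearMap.comp_assoc, h4, LinearMap.neg_comp, LinearMap.comp_assoc,
      eq_neg_of_add_eq_zero_left hf, LinearMap.comp_neg, neg_neg, LinearMap.comp_assoc]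
  have h9 : ∀ f : Lam M →ₗ[A3] Lam M', ε ∘ₗ ε ∘ₗ f = f := fun f => by
    rw [← LinearMap.comp_assoc, h1, LinearMap.id_comp]
  let e : ZC N N' k ≃ₗ[ℂ] LinearMap.ker D :=
    { toFun := fun f => ⟨⟨ε ∘ₗ f.1, pp_comp h2 f.2.1 (by norm_num) (by ring)⟩,
        (hD _).2 (h7 _ f.2.2)⟩
      invFun := fun h => ⟨ε ∘ₗ h.1.1, pp_comp h2 h.1.2 (by norm_num) (by ring),
        h8 _ ((hD _).1 h.2)⟩
      map_add' := fun f g => Subtype.ext (Subtype.ext (LinearMap.comp_add _ _ _))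
      map_smul' := fun c f => Subtype.ext (Subtype.ext (LinearMap.comp_smul _ _ _))
      left_inv := fun f => Subtype.ext (h9 _)
      right_inv := fun f => Subtype.ext (Subtype.ext (h9 _)) }
  rw [← h5, e.finrank_eq]
  exact rk_nul _ D

variable {Mx : Matrix (Fin 4) (Fin 4) A3} (hM : FB Mx) (N N' : FM Mx)

instance pp_finite (s k : ℤ) : Module.Finite ℂ (PP Mx s (frG N.g) (frG N'.g) k) :=
  have := dk_finite (bs_lam N.g) (bs_lam N'.g) k
  Submodule.finiteDimensional_of_le (S₂ := Dk (lamG (frG N.g)) (lamG (frG N'.g)) k)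
    fun _ h => h.1

instance zc_finite (k : ℤ) : Module.Finite ℂ (ZC N.N N'.N k) :=
  Submodule.finiteDimensional_of_le (S₂ := PP Mx 1 (frG N.g) (frG N'.g) k) fun _ h => h.1

theorem zc_bot : ∃ k₀ : ℤ, ∀ k ≤ k₀, ZC N.N N'.N k = ⊥ := by
  obtain ⟨k₀, h⟩ := dk_bot (bs_lam N.g) (bs_lam N'.g)
  exact ⟨k₀, fun k hk => eq_bot_iff.2 fun f hf => h k hk ▸ hf.1.1⟩

include hM

theorem pp_rank (k : ℤ) : (finrank ℂ (PP Mx (-1) (frG N.g) (frG N'.g) k) : ℤ) =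
    ∑ i, ∑ j, cc (k + (N.g j - N'.g i)) := by
  rw [(ppEquiv hM (isGr_fr N'.g) (by norm_num) k).finrank_eq, dk_lam_rank]

theorem bc_rank (k : ℤ) : finrank ℂ (BC N.N N'.N (k + 3)) + finrank ℂ (ZC N.N N'.N k) =
    finrank ℂ (PP Mx (-1) (frG N.g) (frG N'.g) k) :=
  bc_rank' N.N N'.N (par (bL N'.r) fun x => lv x.1 + N'.g x.2) par_sq
    ⟨par_deg (bs_lam N'.g), fun i => by
      rw [neg_smul, one_smul]
      exact par_anti (bs_lam N'.g) odd_one (dk_LL hM (isGr_fr _) i)⟩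
    (par_anti (bs_lam N'.g) (by decide) N'.N.deg) k

omit hM in
/-- the stable Euler form -/
noncomputable def chS : ℤ := ∑ᶠ k : ℤ, (k.negOnePow : ℤ) *
  (finrank ℂ (HQ (ZC N.N N'.N (3 * k)) (BC N.N N'.N (3 * k))) : ℤ)

theorem zc_rank (hb : ∃ b : ℤ, ∀ k ≥ b,
    finrank ℂ (HQ (ZC N.N N'.N (3 * k)) (BC N.N N'.N (3 * k))) = 0) :
    ∃ b : ℤ, ∀ i ≥ b, (finrank ℂ (ZC N.N N'.N (6 * i)) : ℤ) = chS N N' +
      ∑ a, ∑ c, (9 * i ^ 2 + 3 * (N.g c - N'.g a) * i + bet (N.g c - N'.g a)) := by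
  obtain ⟨b, hb⟩ := hb
  obtain ⟨k₀, h₀⟩ := zc_bot N N'
  obtain ⟨c₁, hc₁⟩ := (Set.finite_range fun x : Fin N'.r × Fin N.r => N.g x.2 - N'.g x.1).bddAbove
  obtain ⟨c₂, hc₂⟩ := (Set.finite_range fun x : Fin N'.r × Fin N.r => N.g x.2 - N'.g x.1).bddBelow
  have h := alt_sum (u := fun k => (finrank ℂ (ZC N.N N'.N (3 * k)) : ℤ) -
      ∑ a, ∑ c, TT (3 * k + (N.g c - N'.g a)))
    (H := fun k => (finrank ℂ (HQ (ZC N.N N'.N (3 * k)) (BC N.N N'.N (3 * k))) : ℤ))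
    (a := min (min k₀ 0) (min (-c₁) 0)) (b := b) (by
      intro k
      have h1 := finrank_hq (bc_le (N := N.N) (N' := N'.N) (3 * (k + 1)))
      have h2 := bc_rank hM N N' (3 * k)
      have h3 := pp_rank hM N N' (3 * k)
      have h4 : ∑ a, ∑ c, TT (3 * (k + 1) + (N.g c - N'.g a)) +
          ∑ a, ∑ c, TT (3 * k + (N.g c - N'.g a)) = ∑ a, ∑ c, cc (3 * k + (N.g c - N'.g a)) := by
        rw [← Finset.sum_add_distrib]
        refine Finset.sum_congr rfl fun a _ => ?_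
        rw [← Finset.sum_add_distrib]
        refine Finset.sum_congr rfl fun c _ => ?_
        rw [← TT_rec (fun t => cc_neg) (fun t => cc_pos)]
        congr 2
        ring
      rw [show 3 * k + 3 = 3 * (k + 1) by ring] at h2
      omega) (by
      intro k hk
      rw [h₀ _ (by omega), finrank_bot, Finset.sum_eq_zero fun a _ => Finset.sum_eq_zero
        fun c _ => TT_small (by
          have : N.g c - N'.g a ≤ c₁ := hc₁ ⟨(a, c), rfl⟩
          omega)]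
      rfl) (fun k hk => by rw [hb k hk]; rfl)
  refine ⟨max (max b 0) (-c₂), fun i hi => ?_⟩
  have h1 := h i (by omega)
  rw [show 3 * (2 * i) = 6 * i by ring] at h1
  rw [chS, ← h1, eq_comm, sub_add_eq_add_sub, sub_eq_iff_eq_add]
  congr 1
  refine Finset.sum_congr rfl fun a _ => Finset.sum_congr rfl fun c _ => ?_
  have : c₂ ≤ N.g c - N'.g a := hc₂ ⟨(a, c), rfl⟩
  rw [TT, if_pos (by omega), bet_add]

end Vale.Agent.P287Z.T3
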